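import Vale.Agent.P269.G2.H861.KeyX

/-!
# [J1] Getzler's relation contracted with the Casimir element

`χ (de 2) = 0` for the quantum Euler class `χ = ∑ e_i * e'_i`.
-/

namespace Vale.Agent.P269.G2.H861

open Vale.Agent.P269.G1
open Vale.Agent.P269.G1.H660

variable {R A O : Type*} [CommRing R] [Algebra ℚ R] [CommRing A] [Algebra R A]
    [Ring O] [Algebra R O] (S : Frob R A O)

/-- dual bases for an invariant symmetric form for which `mu` is skew -/
structure IsCas {ι : Type*} [Fintype ι] (e e' : ι → A) : Prop where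
  move : ∀ (B : A →ₗ[R] A →ₗ[R] R) (z : A), ∑ i, B (z * e i) (e' i) = ∑ i, B (e i) (z * e' i)
  symm : ∀ (B : A →ₗ[R] A →ₗ[R] R), ∑ i, B (e i) (e' i) = ∑ i, B (e' i) (e i)
  skew : ∀ (B : A →ₗ[R] A →ₗ[R] R),
    ∑ i, B (H920.M S (e i)) (e' i) = - ∑ i, B (e i) (H920.M S (e' i))
  mid : ∑ i, S.C (e i) * S.mu * S.C (e' i) = 0

/-! ## Bilinear forms -/

theorem H_add_left (x y z : A) : S.H (x + y) z = S.H x z + S.H y z := by
  unfold Frob.H
  rw [S.der_add_left, S.nab_add_left, map_add]; ring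

theorem H_smul_left (g : R) (x z : A) : S.H (g • x) z = g • S.H x z := by
  unfold Frob.H
  rw [S.der_smul_left, S.nab_smul_left, map_smul, smul_eq_mul, smul_eq_mul]; ring

/-- the Hessian of `G` -/
def HL : A →ₗ[R] A →ₗ[R] R := LinearMap.mk₂ R (fun x y => S.H x y)
  (fun x y z => H_add_left S x y z) (fun g x z => H_smul_left S g x z)
  (fun x y z => by rw [H_comm, H_add_left, H_comm S y, H_comm S z])
  (fun g x z => by rw [H_comm, H_smul_left, H_comm S z])

theorem HL_apply (x y : A) : HL S x y = S.H x y := rfl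

theorem c4O_smul_left (g : R) (x y : A) : S.c4O (g • x) y = g • S.c4O x y := by
  rw [H660.c4O_comm, c4O_smul, H660.c4O_comm]

/-- `c4O` as a bilinear map -/
def cL : A →ₗ[R] A →ₗ[R] O := LinearMap.mk₂ R (fun x y => S.c4O x y)
  (fun x y z => c4O_add_left S x y z) (fun g x z => c4O_smul_left S g x z)
  (fun x y z => c4O_add S x y z) (fun g x z => c4O_smul S x g z)

theorem cL_apply (x y : A) : cL S x y = S.c4O x y := rfl

/-- `D` as a linear map -/
def DL : A →ₗ[R] O where
  toFun x := H660.D S x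
  map_add' x y := by unfold H660.D; rw [map_add, map_add, map_add]; noncomm_ring
  map_smul' g x := by
    unfold H660.D
    simp only [map_smul, RingHom.id_apply, smul_mul_assoc, mul_smul_comm, smul_add, smul_sub]

theorem DL_apply (x : A) : DL S x = H660.D S x := rfl

/-- `B x y = str (f x * g y * c)` -/
def strL (f g : A →ₗ[R] O) (c : O) : A →ₗ[R] A →ₗ[R] R :=
  LinearMap.mk₂ R (fun x y => S.str (f x * g y * c))
  (fun x y z => by rw [map_add, add_mul, add_mul, map_add])
  (fun a x z => by rw [map_smul, smul_mul_assoc, smul_mul_assoc, map_smul])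
  (fun x y z => by rw [map_add, mul_add, add_mul, map_add])
  (fun a x z => by rw [map_smul, mul_smul_comm, smul_mul_assoc, map_smul])

theorem strL_apply (f g : A →ₗ[R] O) (c : O) (x y : A) :
    strL S f g c x y = S.str (f x * g y * c) := rfl

/-- `B x y = l (x * f y)` -/
def mulL (l : A →ₗ[R] R) (f : A →ₗ[R] A) : A →ₗ[R] A →ₗ[R] R :=
  LinearMap.mk₂ R (fun x y => l (x * f y))
  (fun x y z => by rw [add_mul, map_add])
  (fun a x z => by rw [smul_mul_assoc, map_smul])
  (fun x y z => by rw [map_add, mul_add, map_add])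
  (fun a x z => by rw [map_smul, mul_smul_comm, map_smul])

omit [Algebra ℚ R] in
theorem mulL_apply (l : A →ₗ[R] R) (f : A →ₗ[R] A) (x y : A) :
    mulL l f x y = l (x * f y) := rfl

/-- `th` as a linear map -/
def thL : A →ₗ[R] R := S.str ∘ₗ S.C.toLinearMap

theorem thL_apply (x : A) : thL S x = th S x := rfl

/-- `M` as a linear map -/
noncomputable def ML : A →ₗ[R] A := S.d - (algebraMap ℚ R S.rho) • LinearMap.id

theorem ML_apply (x : A) : ML S x = H920.M S x := rfl

variable {ι : Type*} [Fintype ι] {e e' : ι → A}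

variable {S} in
/-- the Casimir element -/
theorem cas_H (hC : IsCas S e e') : ∑ i, (2 * S.H (e i * S.E) (S.E * e' i)
    - S.H (e i * S.E * S.E) (e' i) - S.H (S.E * S.E * e' i) (e i)) = 0 := by
  have h1 := hC.move ((HL S).compl₂ (LinearMap.mulLeft R S.E)) S.E
  have h2 := hC.move (HL S) (S.E * S.E)
  simp only [LinearMap.compl₂_apply, LinearMap.mulLeft_apply, HL_apply] at h1 h2
  have h3 : ∀ i, 2 * S.H (e i * S.E) (S.E * e' i) - S.H (e i * S.E * S.E) (e' i)
      - S.H (S.E * S.E * e' i) (e i) =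
      2 * S.H (S.E * e i) (S.E * e' i) - S.H (S.E * S.E * e i) (e' i)
      - S.H (e i) (S.E * S.E * e' i) := by
    intro i
    rw [H_comm S (S.E * S.E * e' i), mul_comm (e i) S.E, mul_comm (S.E * e i) S.E,
      ← mul_assoc S.E S.E]
  have h4 : ∀ i, S.H (e i) (S.E * (S.E * e' i)) = S.H (e i) (S.E * S.E * e' i) := by
    intro i
    rw [mul_assoc]
  rw [Finset.sum_congr rfl fun i _ => h3 i, Finset.sum_sub_distrib, Finset.sum_sub_distrib,
    ← Finset.mul_sum, h1, h2, Finset.sum_congr rfl fun i _ => h4 i]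
  ring

variable {S} in
theorem cas_T (hC : IsCas S e e') : ∑ i, S.G (H660.T S (e i) (e' i)) =
    S.G (S.d ((∑ i, e i * e' i) * S.E) + (∑ i, e i * e' i) * S.d S.E
      - S.E * S.d (∑ i, e i * e' i)) := by
  have h1 := hC.move (mulL S.G S.d) S.E
  have h2 := hC.move ((mulL S.G S.d).flip) S.E
  simp only [LinearMap.flip_apply, mulL_apply] at h1 h2
  have h3 : ∀ i, S.G (H660.T S (e i) (e' i)) =
      ((S.G (S.E * e i * S.d (e' i)) - S.G (e i * S.d (S.E * e' i)))
      + (S.G (S.E * e' i * S.d (e i)) - S.G (e' i * S.d (S.E * e i))))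
      + S.G (S.d (e i * e' i * S.E) + e i * e' i * S.d S.E - S.E * S.d (e i * e' i)) := by
    intro i
    rw [← map_sub, ← map_sub, ← map_add, ← map_add]
    congr 1
    unfold H660.T
    rw [mul_comm (e i) S.E, mul_comm (e' i) S.E]
    ring
  have h4 : ∑ i, S.G (S.d (e i * e' i * S.E) + e i * e' i * S.d S.E - S.E * S.d (e i * e' i)) =
      S.G (S.d ((∑ i, e i * e' i) * S.E) + (∑ i, e i * e' i) * S.d S.E
      - S.E * S.d (∑ i, e i * e' i)) := by
    rw [← map_sum, Finset.sum_sub_distrib, Finset.sum_add_distrib, Finset.sum_mul, Finset.sum_mul,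
      map_sum S.d, map_sum S.d, Finset.mul_sum]
  rw [Finset.sum_congr rfl fun i _ => h3 i, Finset.sum_add_distrib, Finset.sum_add_distrib,
    Finset.sum_sub_distrib, Finset.sum_sub_distrib, h1, h2, h4]
  ring

variable {S} in
theorem cas_th_M (hC : IsCas S e e') : ∑ i, th S (e i * H920.M S (e' i)) = 0 := by
  have h1 := hC.skew (mulL (thL S) LinearMap.id)
  have h2 := hC.symm (mulL (thL S) (ML S))
  simp only [mulL_apply, thL_apply, LinearMap.id_apply, ML_apply] at h1 h2
  have h3 : ∀ i, th S (H920.M S (e i) * e' i) = th S (e' i * H920.M S (e i)) := by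
    intro i; rw [mul_comm]
  rw [Finset.sum_congr rfl fun i _ => h3 i, ← h2] at h1
  have h4 : ((2 : ℕ) : R) * ∑ i, th S (e i * H920.M S (e' i)) = ((2 : ℕ) : R) * 0 := by
    push_cast
    linear_combination h1
  exact ncancel 2 (by norm_num) h4

variable {S} in
theorem cas_K (hC : IsCas S e e') :
    ∑ i, S.str (S.c4O (e i) (e' i) * H660.K S S.E) =
      ∑ i, S.str (H660.K S (e i) * H660.K S (e' i)) := by
  have h1 := hC.move ((cL S).compr₂ (S.str ∘ₗ LinearMap.mulRight R S.mu)) S.E
  have h2 := hC.symm (strL S S.C.toLinearMap (DL S) S.mu)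
  simp only [LinearMap.compr₂_apply, LinearMap.comp_apply, LinearMap.mulRight_apply, cL_apply,
    strL_apply, DL_apply, AlgHom.toLinearMap_apply] at h1 h2
  have h3 : ∀ i, S.str (S.c4O (e i) (e' i) * H660.K S S.E) =
      (S.str (S.c4O (S.E * e i) (e' i) * S.mu) - S.str (S.c4O (e i) (S.E * e' i) * S.mu))
      + (S.str (H660.D S (e i) * S.C (e' i) * S.mu)
        - S.str (S.C (e i) * H660.D S (e' i) * S.mu)) := by
    intro i
    rw [q8point, mul_comm (e i) S.E]
    ring
  rw [Finset.sum_congr rfl fun i _ => h3 i, Finset.sum_add_distrib, Finset.sum_sub_distrib,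
    Finset.sum_sub_distrib, h1, h2, sub_self, zero_add, ← Finset.sum_sub_distrib]
  exact Finset.sum_congr rfl fun i _ => q8point2 S _ _

variable {S} in
theorem cas_B (hC : IsCas S e e') : ∑ i,
    ((Hth S (S.E * e i) (S.d (e' i)) - Hth S (e i) (S.d (S.E * e' i)))
      + (Hth S (S.E * e' i) (S.d (e i)) - Hth S (e' i) (S.d (S.E * e i)))
      + th S (e i * S.d (e' i)) - th S (e' i * S.d (e i))) = 0 := by
  have h1 := hC.move (((cL S).compr₂ S.str).compl₂ S.d) S.E
  have h2 := hC.move (((cL S).compr₂ S.str).compl₂ S.d).flip S.E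
  have h3 := hC.symm (mulL (thL S) S.d)
  simp only [LinearMap.compr₂_apply, LinearMap.compl₂_apply, LinearMap.flip_apply, cL_apply,
    mulL_apply, thL_apply] at h1 h2 h3
  rw [Finset.sum_sub_distrib, Finset.sum_add_distrib, Finset.sum_add_distrib,
    Finset.sum_sub_distrib, Finset.sum_sub_distrib]
  unfold Hth
  linear_combination h1 - h2 + h3

variable {S} in
theorem cas_Q (hC : IsCas S e e') : ∑ i, H660.Q S (e i) (e' i) =
    -24 * S.der (∑ i, e i * e' i) (S.om 2) := by
  have h0 : ∀ i, H660.Q S (e i) (e' i) =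
      (12 * S.str (S.mu * S.mu * S.C (e i * e' i)) + Hth S (S.d S.E) (e i * e' i)
        + th S (S.d (e i * e' i)) - th S (S.d (S.d (e i * e' i)))
        - 2 * algebraMap ℚ R S.rho * th S (e i * e' i))
      + -12 * S.str (S.mu * (S.C (e i) * S.mu * S.C (e' i)))
      + -2 * th S (e i * H920.M S (e' i))
      + ((Hth S (S.E * e i) (S.d (e' i)) - Hth S (e i) (S.d (S.E * e' i)))
      + (Hth S (S.E * e' i) (S.d (e i)) - Hth S (e' i) (S.d (S.E * e i)))
      + th S (e i * S.d (e' i)) - th S (e' i * S.d (e i)))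
      + 2 * (S.str (H660.K S (e i) * H660.K S (e' i))
        - S.str (S.c4O (e i) (e' i) * H660.K S S.E)) := by
    intro i
    have h1 := Qpoint S (e i) (e' i)
    have h2 := Bpoint S (e i) (e' i)
    unfold H660.P at h1
    have h3 : th S (e i * H920.M S (e' i)) =
        th S (e i * S.d (e' i)) - algebraMap ℚ R S.rho * th S (e i * e' i) := by
      rw [M_eq, mul_sub, th_sub, ← th_rr]
      congr 2
      ring
    have h4 : S.mu * (S.C (e i) * S.mu * S.C (e' i)) =
        S.mu * S.C (e i) * S.mu * S.C (e' i) := by noncomm_ring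
    rw [h3, h4]
    linear_combination h1 + h2
  have h5 := der_om_two S (∑ i, e i * e' i)
  have h6 := congrArg (fun z => S.str (S.mu * z)) hC.mid
  simp only [mul_zero, map_zero, Finset.mul_sum, map_sum] at h6
  rw [Finset.sum_congr rfl fun i _ => h0 i, Finset.sum_add_distrib, Finset.sum_add_distrib,
    Finset.sum_add_distrib, Finset.sum_add_distrib, ← Finset.mul_sum, ← Finset.mul_sum,
    ← Finset.mul_sum, Finset.sum_sub_distrib (f := fun i => S.str (H660.K S (e i) * H660.K S (e' i))),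
    cas_B hC, cas_K hC, cas_th_M hC, h6]
  have e1 : ∑ i, S.str (S.mu * S.mu * S.C (e i * e' i)) =
      S.str (S.mu * S.mu * S.C (∑ i, e i * e' i)) := by
    rw [map_sum, Finset.mul_sum, map_sum]
  have e2 : ∑ i, Hth S (S.d S.E) (e i * e' i) = Hth S (S.d S.E) (∑ i, e i * e' i) := by
    have := map_sum (cL S (S.d S.E)) (fun i => e i * e' i) Finset.univ
    unfold Hth
    rw [← cL_apply, this, map_sum]
    rfl
  have e3 : ∑ i, th S (S.d (e i * e' i)) = th S (S.d (∑ i, e i * e' i)) := by
    rw [map_sum, th_sum]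
  have e4 : ∑ i, th S (S.d (S.d (e i * e' i))) = th S (S.d (S.d (∑ i, e i * e' i))) := by
    rw [map_sum, map_sum, th_sum]
  have e5 : ∑ i, th S (e i * e' i) = th S (∑ i, e i * e' i) := by rw [th_sum]
  rw [Finset.sum_sub_distrib, Finset.sum_sub_distrib, Finset.sum_add_distrib,
    Finset.sum_add_distrib, ← Finset.mul_sum, ← Finset.mul_sum, e1, e2, e3, e4, e5,
    Hth_comm S (S.d S.E)]
  linear_combination h5

variable {S} in
/-- **[J1]** -/
theorem J1 (hG : S.Getzler) (hC : IsCas S e e') : S.der (∑ i, e i * e' i) (S.de 2) = 0 := by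
  have h0 : ∀ i,
      24 * ((2 * S.H (e i * S.E) (S.E * e' i) - S.H (e i * S.E * S.E) (e' i)
        - S.H (S.E * S.E * e' i) (e i))
      + (S.H (e i * e' i) (S.E * S.E) - 2 * S.H (e i * e' i * S.E) S.E)
      + S.G (H660.T S (e i) (e' i))) + H660.Q S (e i) (e' i) = 0 := by
    intro i
    have h1 := getz S hG (e i) (e' i)
    have h2 := gpoint S (e i) (e' i)
    have h3 : H660.Q S (e i) (e' i) =
        (Hth S (e i) (S.c4 S.E S.E (e' i)) + 2 * Hth S S.E (S.c4 (e i) S.E (e' i))
          + Hth S (e' i) (S.c4 (e i) S.E S.E))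
        + th S (S.c5 S.E S.E (e i) (e' i))
        - 4 * S.str (S.c4O (e i) S.E * S.c4O (e' i) S.E)
        - 2 * S.str (S.c4O (e i) (e' i) * S.c4O S.E S.E) := by
      unfold H660.Q
      rw [c4_E', c4_E', c4_E', c4O_E, c4O_E, c4O_E, Hth_comm S S.E, Hth_E]
    have e1 : e i * S.E * e' i = e i * e' i * S.E := by ring
    rw [e1] at h1
    rw [h3]
    linear_combination h1 - h2
  have h1 := Finset.sum_eq_zero (s := Finset.univ) fun i _ => h0 i
  have e1 : ∑ i, S.H (e i * e' i) (S.E * S.E) = S.H (∑ i, e i * e' i) (S.E * S.E) := by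
    have := map_sum (HL S) (fun i => e i * e' i) Finset.univ
    rw [← HL_apply, this, LinearMap.sum_apply]
    rfl
  have e2 : ∑ i, S.H (e i * e' i * S.E) S.E = S.H ((∑ i, e i * e' i) * S.E) S.E := by
    have := map_sum (HL S) (fun i => e i * e' i * S.E) Finset.univ
    rw [Finset.sum_mul, ← HL_apply, this, LinearMap.sum_apply]
    rfl
  rw [Finset.sum_add_distrib, ← Finset.mul_sum, Finset.sum_add_distrib, Finset.sum_add_distrib,
    cas_H hC, cas_T hC, cas_Q hC, Finset.sum_sub_distrib, ← Finset.mul_sum, e1, e2, H_E, H_EE,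
    map_sub, map_add] at h1
  have h2 : S.de 2 = S.G (S.E ^ 2) - S.om 2 := rfl
  rw [h2, der_sub, pow_two]
  have h24 : algebraMap ℚ R (1 / 24) * (24 : R) = 1 := by
    rw [← map_ofNat (algebraMap ℚ R) 24, ← map_mul]; norm_num
  have h4 := congrArg (fun z => algebraMap ℚ R (1 / 24) * z) h1
  simp only [mul_zero] at h4
  linear_combination h4 - (S.der (∑ i, e i * e' i) (S.G (S.E * S.E))
    - S.der (∑ i, e i * e' i) (S.om 2)) * h24

end Vale.Agent.P269.G2.H861
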