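import Vale.Agent.P269.G2.XSpec
import Vale.Agent.P269.G1.H598.Ser
import Vale.Agent.P269.G2.H598.Ya

/-!
# [Yb] functions given by their coefficients, restriction and derivatives at the origin
-/

namespace Vale.Agent.P269.G2.H861

open Finset.HasAntidiagonal (antidiagonal)
open Vale.Agent.P269.CI
open Vale.Agent.P269.G1 (RR ser toSer lst)
open Vale.Agent.P269.G2
open Vale.Agent.P269.G2.H333 (ev0 coeff_ev0 dl DD constantCoeff_ev0)
open Vale.Agent.P269.G2.H984 (RF rhoc dP coeff_zero_of_dl)

variable {X : CompleteIntersection}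

/-- the exponents of the ambient classes in all variables -/
noncomputable def em (α : Fin (X.dim + 1) →₀ ℕ) : Fin (nx X) →₀ ℕ :=
  Finsupp.embDomain (Fintype.equivFin (Ix X)).toEmbedding
    (Finsupp.embDomain (Function.Embedding.inl (α := Fin (X.dim + 1)) (β := X.Prim)) α)

theorem em_apply_inl (α : Fin (X.dim + 1) →₀ ℕ) (j : Fin (X.dim + 1)) :
    em α (Fintype.equivFin (Ix X) (Sum.inl j)) = α j := by
  have h1 := Finsupp.embDomain_apply_self (Fintype.equivFin (Ix X)).toEmbedding
    (Finsupp.embDomain (Function.Embedding.inl (α := Fin (X.dim + 1)) (β := X.Prim)) α)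
    (Sum.inl j)
  have h2 := Finsupp.embDomain_apply_self
    (Function.Embedding.inl (α := Fin (X.dim + 1)) (β := X.Prim)) α j
  exact h1.trans h2

theorem em_apply_inr (α : Fin (X.dim + 1) →₀ ℕ) (v : X.Prim) :
    em α (Fintype.equivFin (Ix X) (Sum.inr v)) = 0 := by
  have h1 := Finsupp.embDomain_apply_self (Fintype.equivFin (Ix X)).toEmbedding
    (Finsupp.embDomain (Function.Embedding.inl (α := Fin (X.dim + 1)) (β := X.Prim)) α)
    (Sum.inr v)
  refine h1.trans (Finsupp.embDomain_of_notMem_range _ _ _ ?_)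
  rintro ⟨i, hi⟩
  exact Sum.inl_ne_inr hi

theorem coeff_ev0_phi (f : RM X) (α : Fin (X.dim + 1) →₀ ℕ) :
    MvPowerSeries.coeff α (ev0 (phi X f)) = MvPowerSeries.coeff (em α) f := by
  rw [coeff_ev0, H598.coeff_phi]
  rfl

theorem prod_fact (α : Fin (X.dim + 1) →₀ ℕ) :
    ∏ i, (em α i).factorial = ∏ j, (α j).factorial := by
  classical
  rw [← (Fintype.equivFin (Ix X)).prod_comp, Fintype.prod_sum_type]
  have h2 : ∏ v : X.Prim, (em α (Fintype.equivFin (Ix X) (Sum.inr v))).factorial = 1 :=
    Finset.prod_eq_one fun v _ => by rw [em_apply_inr]; rfl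
  rw [h2, mul_one]
  exact Finset.prod_congr rfl fun j _ => by rw [em_apply_inl]

theorem lst_perm (α : Fin (X.dim + 1) →₀ ℕ) :
    (lst (em α)).Perm ((lst α).map fun j => Fintype.equivFin (Ix X) (Sum.inl j)) := by
  classical
  have hinj : Function.Injective fun j : Fin (X.dim + 1) =>
      Fintype.equivFin (Ix X) (Sum.inl j) := fun a b h =>
    Sum.inl_injective ((Fintype.equivFin (Ix X)).injective h)
  rw [List.perm_iff_count]
  intro i
  rw [G1.H598.count_lst]
  obtain ⟨a, rfl⟩ := (Fintype.equivFin (Ix X)).surjective i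
  rcases a with j | v
  · rw [em_apply_inl, List.count_map_of_injective _ _ hinj, G1.H598.count_lst]
  · rw [em_apply_inr]
    symm
    rw [List.count_eq_zero]
    intro hm
    obtain ⟨j, _, hj⟩ := List.mem_map.1 hm
    exact Sum.inl_ne_inr ((Fintype.equivFin (Ix X)).injective hj)

/-- **[Yb]** restriction of a function given by its coefficients -/
theorem ev0_phi_sr (A : ℕ → List (Ins X) → ℂ) (hA : SymF (E0 X) A) :
    ev0 (phi X (sr (E0 X) A)) = ser A := by
  ext α : 1
  rw [coeff_ev0_phi]
  change ((∏ i, (em α i).factorial : ℕ) : ℚ)⁻¹ •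
      (PowerSeries.mk fun d => A d ((lst (em α)).map (E0 X).e)) =
    ((∏ i, (α i).factorial : ℕ) : ℚ)⁻¹ • (PowerSeries.mk fun d => A d ((lst α).map (hpow X)))
  rw [prod_fact]
  congr 2
  funext d
  rw [hA d _ _ (lst_perm α), List.map_map]
  congr 1
  refine List.map_congr_left fun j _ => ?_
  exact (E0 X).e_i0 (Sum.inl j)

theorem dP_sr (w : List X.Prim) : ∀ (A : ℕ → List (Ins X) → ℂ), SymF (E0 X) A →
    dP w (phi X (sr (E0 X) A)) =
      phi X (sr (E0 X) (fun d L => A d (w.map (fun v => ((Sum.inr v, 0) : Ins X)) ++ L))) := by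
  induction w with
  | nil => intro A _; rfl
  | cons v w ih =>
    intro A hA
    have h0 : (E0 X).e ((E0 X).i0 (Sum.inr v)) = (Sum.inr v, 0) := (E0 X).e_i0 _
    change dP w (MvPowerSeries.pderiv (PowerSeries ℂ) (Sum.inr v) (phi X (sr (E0 X) A))) = _
    rw [← phi_pd, pd, pderiv_sr (E0 X) A hA, h0]
    rw [ih]
    · rfl
    · intro d L M hLM
      have h2 := hA d ((E0 X).i0 (Sum.inr v) :: L) ((E0 X).i0 (Sum.inr v) :: M) (hLM.cons _)
      rw [List.map_cons, List.map_cons, h0] at h2
      exact h2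

/-- **[Yb]** the derivatives at the origin -/
theorem origin_sr (A : ℕ → List (Ins X) → ℂ) (hA : SymF (E0 X) A) (w : List X.Prim) :
    MvPowerSeries.constantCoeff (dP w (phi X (sr (E0 X) A))) =
      PowerSeries.mk fun d => A d (w.map fun v => (Sum.inr v, 0)) := by
  rw [dP_sr w A hA, ← constantCoeff_ev0, ← MvPowerSeries.coeff_zero_eq_constantCoeff_apply,
    coeff_ev0_phi]
  have h0 : em (X := X) 0 = 0 := by
    rw [em, Finsupp.embDomain_zero, Finsupp.embDomain_zero]
  rw [h0, MvPowerSeries.coeff_zero_eq_constantCoeff_apply, sr, G1.H598.constantCoeff_toSer]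
  congr 1
  funext d
  rw [List.map_nil, List.append_nil]

/-- **[Yb]** from `coeff_zero_of_dl` -/
theorem list_zero (A : ℕ → List (Ins X) → ℂ) (hA : SymF (E0 X) A) (N0 : ℕ)
    (h : ∀ w : List X.Prim, w.length ≤ N0 → ev0 (dP w (phi X (sr (E0 X) A))) = 0)
    (d : ℕ) (L : List (Ix X)) (hL : (L.countP fun a => a.isRight) ≤ N0) :
    A d (L.map fun a => (a, 0)) = 0 := by
  classical
  letI iD : DecidableEq (Ix X) := Classical.decEq _
  letI iB : BEq (Ix X) := instBEqOfDecidableEq
  haveI iL : LawfulBEq (Ix X) := inferInstance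
  have hmap : (L.map fun a => ((a, 0) : Ins X)) =
      (L.map fun a => Fintype.equivFin (Ix X) a).map (E0 X).e := by
    rw [List.map_map]
    exact List.map_congr_left fun a _ => ((E0 X).e_i0 a).symm
  set M : List (Fin (nx X)) := L.map fun a => Fintype.equivFin (Ix X) a with hM
  have h1 : ∀ a : Ix X, M.count (Fintype.equivFin (Ix X) a) = L.count a := fun a =>
    List.count_map_of_injective _ _ (Fintype.equivFin (Ix X)).injective _
  set γ : Ix X →₀ ℕ := Finsupp.equivFunOnFinite.symm fun a => L.count a with hγ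
  have h2 : ∀ L : List (Ix X), ∑ v : X.Prim, L.count (Sum.inr v) =
      L.countP fun a => a.isRight := by
    intro L
    induction L with
    | nil => simp
    | cons a L ih =>
      rw [List.countP_cons, ← ih]
      simp only [List.count_cons, Finset.sum_add_distrib]
      congr 1
      rcases a with j | v
      · refine (Finset.sum_eq_zero fun x _ => ?_).trans (by simp)
        rw [if_neg]
        intro hx
        exact Sum.inl_ne_inr (eq_of_beq hx)
      · rw [Finset.sum_eq_single v]
        · simp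
        · intro x _ hx
          rw [if_neg]
          intro h
          exact hx (Sum.inr_injective (eq_of_beq h)).symm
        · intro h
          exact absurd (Finset.mem_univ _) h
  have h3 : MvPowerSeries.coeff γ (phi X (sr (E0 X) A)) = 0 := by
    refine coeff_zero_of_dl N0 _ (fun w hw => h w hw) γ ?_
    have h4 : ∑ v : X.Prim, γ (Sum.inr v) = ∑ v : X.Prim, L.count (Sum.inr v) := rfl
    rw [h4, h2]
    exact hL
  rw [H598.coeff_phi] at h3
  have h5 : Finsupp.embDomain (Fintype.equivFin (Ix X)).toEmbedding γ = G1.H598.cnt M := by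
    ext i
    obtain ⟨a, rfl⟩ := (Fintype.equivFin (Ix X)).surjective i
    exact (Finsupp.embDomain_apply_self (Fintype.equivFin (Ix X)).toEmbedding γ a).trans
      (h1 a).symm
  rw [h5] at h3
  have h6 : ((∏ i, (G1.H598.cnt M i).factorial : ℕ) : ℚ)⁻¹ •
      (PowerSeries.mk fun d => A d ((lst (G1.H598.cnt M)).map (E0 X).e)) = 0 := h3
  have h7 : (((∏ i, (G1.H598.cnt M i).factorial : ℕ) : ℚ)⁻¹) ≠ 0 :=
    inv_ne_zero (Nat.cast_ne_zero.2 (Finset.prod_ne_zero_iff.2 fun i _ =>
      Nat.factorial_ne_zero _))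
  have h8 := (smul_eq_zero.1 h6).resolve_left h7
  have h9 := congrArg (PowerSeries.coeff d) h8
  rw [PowerSeries.coeff_mk, map_zero, hA d _ _ (G1.H598.lst_cnt M)] at h9
  rw [hmap]
  exact h9

end Vale.Agent.P269.G2.H861
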